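import Mathlib

/-!
# The bivariate block of (K*) for odd degree (P181, #14537 helper493, #14832 helper907)
-/

open Polynomial Polynomial.Bivariate

namespace Vale.Agent.P181.H970

/-- two bivariate polynomials with the same values are equal -/
theorem bi_ext {P Q : ℂ[X][Y]} (h : ∀ x y, evalEval x y P = evalEval x y Q) : P = Q := by
  apply Polynomial.eq_of_infinite_eval_eq
  apply Set.Infinite.mono (s := Set.range (C : ℂ → ℂ[X]))
  · rintro _ ⟨y, rfl⟩
    exact Polynomial.funext fun x => h x y
  · exact Set.infinite_range_of_injective C_injective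

/-- `C X - Y` -/
noncomputable def del : ℂ[X][Y] := C X - Y

theorem swap_del : swap del = - del := by
  simp [del, swap_apply]

theorem ev_del (x y : ℂ) : evalEval x y del = x - y := by
  rw [del, evalEval_sub, evalEval_C, evalEval_X, eval_X]

theorem der_del : derivative del = -1 := by
  simp [del]

theorem del_ne : (del : ℂ[X][Y]) ≠ 0 := by
  intro h
  have := congrArg (evalEval (1 : ℂ) 0) h
  rw [ev_del, evalEval_zero] at this
  norm_num at this

theorem del_dvd {H : ℂ[X][Y]} (h : ∀ x : ℂ, evalEval x x H = 0) : del ∣ H := by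
  have h1 : (Y - C X : ℂ[X][Y]) ∣ H := by
    rw [Polynomial.dvd_iff_isRoot]
    refine Polynomial.funext fun x => ?_
    have := h x
    rw [evalEval] at this
    rw [eval_zero]
    have key : ∀ K : ℂ[X][Y], eval x (eval X K) = eval x (eval (C x) K) := by
      intro K
      induction K using Polynomial.induction_on' with
      | add p q hp hq => simp [hp, hq]
      | monomial n a => simp
    rw [key, this]
  obtain ⟨K, hK⟩ := h1
  refine ⟨-K, ?_⟩
  rw [hK, del]
  ring

theorem biv {d : ℕ} {μ : ℂ} (hμ : ∀ B : ℕ, B < d → μ ≠ (-1) ^ B * ((d - B : ℕ) : ℂ))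
    (G : ℂ[X][Y])
    (h : (d : ℂ[X][Y]) * G + del * derivative G = CC μ * swap G) : del ^ d ∣ G := by
  have main : ∀ B : ℕ, B ≤ d → del ^ B ∣ G := by
    intro B
    induction B with
    | zero => intro _; simp
    | succ B ih =>
      intro hB
      obtain ⟨H, hH⟩ := ih (by omega)
      have hsw : swap G = (-1) ^ B * del ^ B * swap H := by
        rw [hH, map_mul, map_pow, swap_del, neg_eq_neg_one_mul (del : ℂ[X][Y]), mul_pow]
      have hder : del * derivative G = del ^ B * (del * derivative H - (B : ℂ[X][Y]) * H) := by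
        rw [hH, derivative_mul, derivative_pow]
        rw [der_del]
        cases B with
        | zero => simp
        | succ B =>
          have hc : (C (((B + 1 : ℕ) : ℂ[X])) : ℂ[X][Y]) = ((B + 1 : ℕ) : ℂ[X][Y]) := by simp
          rw [hc, Nat.add_sub_cancel, pow_succ]
          ring
      have h3 : del ^ B * ((d : ℂ[X][Y]) * H + (del * derivative H - (B : ℂ[X][Y]) * H)
          - CC μ * (-1) ^ B * swap H) = 0 := by
        have := h
        rw [hder, hsw] at this
        have h4 : (d : ℂ[X][Y]) * G = del ^ B * ((d : ℂ[X][Y]) * H) := by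
          conv_lhs => rw [hH]
          ring
        rw [h4] at this
        linear_combination this
      have h5 := (mul_eq_zero.1 h3).resolve_left (pow_ne_zero _ del_ne)
      have h6 : ∀ x : ℂ, evalEval x x H = 0 := by
        intro x
        have h7 := congrArg (evalEval x x) h5
        have h8 : evalEval x x (swap H) = evalEval x x H := by
          rw [← coe_aevalAeval_eq_evalEval, aevalAeval_swap]
        have h9 : evalEval x x (del : ℂ[X][Y]) = 0 := by rw [ev_del, sub_self]
        simp only [evalEval_sub, evalEval_add, evalEval_mul, evalEval_natCast, evalEval_CC,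
          evalEval_pow, evalEval_neg, evalEval_one, evalEval_zero, h8, h9, zero_mul] at h7
        have h10 : (((d - B : ℕ) : ℂ) - μ * (-1) ^ B) * evalEval x x H = 0 := by
          rw [Nat.cast_sub (by omega)]
          linear_combination h7
        rcases mul_eq_zero.1 h10 with h11 | h11
        · exfalso
          apply hμ B (by omega)
          have h12 : ((-1 : ℂ) ^ B) * ((-1 : ℂ) ^ B) = 1 := by
            rw [← mul_pow]; simp
          have h13 : ((d - B : ℕ) : ℂ) = μ * (-1) ^ B := by linear_combination h11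
          rw [h13]
          linear_combination (-μ) * h12
        · exact h11
      obtain ⟨K, hK⟩ := del_dvd h6
      refine ⟨K, ?_⟩
      rw [hH]
      conv_lhs => rw [hK]
      ring
  exact main d le_rfl

theorem biv_zero {d : ℕ} {μ : ℂ} (hμ : ∀ B : ℕ, B < d → μ ≠ (-1) ^ B * ((d - B : ℕ) : ℂ))
    (G : ℂ[X][Y])
    (h : (d : ℂ[X][Y]) * G + del * derivative G = CC μ * swap G)
    (hdeg : ∀ s : ℂ, (eval (C s) G).natDegree < d) (t s : ℂ) : evalEval t s G = 0 := by
  obtain ⟨H, hH⟩ := biv hμ G h
  have h1 : eval (C s) G = (X - C s) ^ d * eval (C s) H := by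
    conv_lhs => rw [hH]
    simp [del]
  by_contra hne
  have h2 : eval (C s) G ≠ 0 := by
    intro h0
    apply hne
    rw [evalEval, h0, eval_zero]
  have h3 : eval (C s) H ≠ 0 := by
    intro h0
    apply h2
    rw [h1, h0, mul_zero]
  have h4 := hdeg s
  rw [h1, natDegree_mul (pow_ne_zero _ (X_sub_C_ne_zero s)) h3, natDegree_pow,
    natDegree_X_sub_C] at h4
  omega

variable {A : Type*} [CommRing A] [Algebra ℂ A]

/-- the polynomial `t ↦ M (l ↦ (p + t q) V_l)` -/
noncomputable def lineP {m : ℕ} (p q : A) (V : Fin m → A)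
    (M : MultilinearMap ℂ (fun _ : Fin m => A) ℂ) : ℂ[X] :=
  ∑ S : Finset (Fin m), C (M (S.piecewise (fun l => p * V l) (fun l => q * V l))) * X ^ (Sᶜ.card)

theorem lineP_eval {m : ℕ} (p q : A) (V : Fin m → A)
    (M : MultilinearMap ℂ (fun _ : Fin m => A) ℂ) (t : ℂ) :
    eval t (lineP p q V M) = M (fun l => (p + t • q) * V l) := by
  classical
  have h1 : (fun l => (p + t • q) * V l) = (fun l => p * V l) + (fun l => t • (q * V l)) := by
    funext l
    simp [add_mul]
  rw [h1, MultilinearMap.map_add_univ, lineP, eval_finsetSum]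
  refine Finset.sum_congr rfl fun S _ => ?_
  have h2 : S.piecewise (fun l => p * V l) (fun l => t • (q * V l))
      = fun l => (if l ∈ S then (1 : ℂ) else t) • (S.piecewise (fun l => p * V l) (fun l => q * V l)) l := by
    funext l
    by_cases hl : l ∈ S <;> simp [hl]
  rw [h2, MultilinearMap.map_smul_univ]
  have h3 : ∏ l, (if l ∈ S then (1 : ℂ) else t) = t ^ (Sᶜ.card) := by
    rw [Finset.prod_ite, Finset.prod_const_one, one_mul, Finset.prod_const]
    congr 2
    ext l
    simp
  rw [h3, eval_mul, eval_C, eval_pow, eval_X, smul_eq_mul, mul_comm]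

theorem lineP_natDegree {m : ℕ} (p q : A) (V : Fin m → A)
    (M : MultilinearMap ℂ (fun _ : Fin m => A) ℂ) : (lineP p q V M).natDegree < m + 1 := by
  refine Nat.lt_succ_of_le ?_
  refine natDegree_sum_le_of_forall_le _ _ fun S _ => ?_
  refine (natDegree_C_mul_X_pow_le _ _).trans ?_
  have := Finset.card_le_univ (Sᶜ)
  rwa [Fintype.card_fin] at this

/-- **the eigenvalue lemma** -/
theorem eig (L : Submodule ℂ A) {m : ℕ} (Ψ : A →ₗ[ℂ] MultilinearMap ℂ (fun _ : Fin m => A) ℂ)
    (V : Fin m → A) (μ : ℂ)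
    (hμ : ∀ B : ℕ, B ≤ m → μ ≠ (-1) ^ B * ((m + 1 - B : ℕ) : ℂ))
    (h : ∀ x ∈ L, ∀ y ∈ L, ((m + 1 : ℕ) : ℂ) * Ψ (y * x ^ m) (fun l => y * V l)
      = μ * Ψ (y ^ (m + 1)) (fun l => x * V l)) :
    ∀ x ∈ L, ∀ y ∈ L, Ψ (x ^ (m + 1)) (fun l => y * V l) = 0 := by
  intro p hp y hy
  set q : A := y - p with hq
  have hqL : q ∈ L := L.sub_mem hy hp
  set G : ℂ[X][Y] := ∑ i ∈ Finset.range (m + 2),
    C (C (((m + 1).choose i : ℕ) : ℂ) * lineP p q V (Ψ (p ^ (m + 1 - i) * q ^ i))) * Y ^ i with hG
  -- values of G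
  have hval : ∀ t s : ℂ, evalEval t s G = Ψ ((p + s • q) ^ (m + 1)) (fun l => (p + t • q) * V l) := by
    intro t s
    have h1 : (p + s • q) ^ (m + 1)
        = ∑ i ∈ Finset.range (m + 2), ((((m + 1).choose i : ℕ) : ℂ) * s ^ i) • (p ^ (m + 1 - i) * q ^ i) := by
      rw [add_comm p, add_pow]
      refine Finset.sum_congr rfl fun i _ => ?_
      rw [_root_.smul_pow, Algebra.smul_def, Algebra.smul_def, map_mul, map_natCast]
      ring
    rw [h1, map_sum, _root_.sum_apply, hG, evalEval_finsetSum]
    refine Finset.sum_congr rfl fun i _ => ?_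
    rw [map_smul, _root_.smul_apply, evalEval_mul, evalEval_C, evalEval_pow, evalEval_X,
      eval_mul, eval_C, lineP_eval, smul_eq_mul]
    ring
  have hder : ∀ t s : ℂ, evalEval t s (derivative G)
      = ((m + 1 : ℕ) : ℂ) * Ψ (q * (p + s • q) ^ m) (fun l => (p + t • q) * V l) := by
    intro t s
    have h1 : q * (p + s • q) ^ m
        = ∑ i ∈ Finset.range (m + 1), (((m.choose i : ℕ) : ℂ) * s ^ i) • (p ^ (m - i) * q ^ (i + 1)) := by
      rw [add_comm p, add_pow, Finset.mul_sum]
      refine Finset.sum_congr rfl fun i _ => ?_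
      rw [_root_.smul_pow, Algebra.smul_def, Algebra.smul_def, map_mul, map_natCast]
      ring
    have h1' : Ψ (q * (p + s • q) ^ m) (fun l => (p + t • q) * V l)
        = ∑ i ∈ Finset.range (m + 1), Ψ ((((m.choose i : ℕ) : ℂ) * s ^ i) • (p ^ (m - i) * q ^ (i + 1)))
          (fun l => (p + t • q) * V l) := by
      rw [h1, map_sum, _root_.sum_apply]
    rw [h1', hG, derivative_sum, evalEval_finsetSum,
      Finset.mul_sum, Finset.sum_range_succ']
    have h0 : evalEval t s (derivative (C (C (((m + 1).choose 0 : ℕ) : ℂ) *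
        lineP p q V (Ψ (p ^ (m + 1 - 0) * q ^ 0))) * Y ^ 0)) = 0 := by
      simp
    rw [h0, add_zero]
    refine Finset.sum_congr rfl fun i _ => ?_
    rw [map_smul, _root_.smul_apply, derivative_C_mul, derivative_X_pow, evalEval_mul,
      evalEval_C, eval_mul, eval_C, lineP_eval, smul_eq_mul, evalEval_mul, evalEval_pow, evalEval_X]
    have h2 : evalEval t s (C ((i + 1 : ℕ) : ℂ[X]) : ℂ[X][Y]) = ((i + 1 : ℕ) : ℂ) := by
      rw [evalEval_C]; simp
    rw [h2]
    have h3 : ((m + 1 : ℕ) : ℂ) * ((m.choose i : ℕ) : ℂ)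
        = (((m + 1).choose (i + 1) : ℕ) : ℂ) * ((i + 1 : ℕ) : ℂ) := by
      exact_mod_cast Nat.add_one_mul_choose_eq m i
    have h4 : m + 1 - (i + 1) = m - i := by omega
    have h5 : i + 1 - 1 = i := by omega
    rw [h4, h5]
    linear_combination (- s ^ i * (Ψ (p ^ (m - i) * q ^ (i + 1))) (fun l => (p + t • q) * V l)) * h3
  have hrel : ((m + 1 : ℕ) : ℂ[X][Y]) * G + del * derivative G = CC μ * swap G := by
    apply bi_ext
    intro t s
    have hsw : evalEval t s (swap G) = evalEval s t G := by
      rw [← coe_aevalAeval_eq_evalEval, aevalAeval_swap, coe_aevalAeval_eq_evalEval]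
    have hd : evalEval t s (del : ℂ[X][Y]) = t - s := ev_del t s
    rw [evalEval_add, evalEval_mul, evalEval_mul, evalEval_mul, evalEval_natCast, hd, hsw,
      evalEval_CC, hder, hval, hval]
    have hx : p + s • q ∈ L := L.add_mem hp (L.smul_mem _ hqL)
    have hy' : p + t • q ∈ L := L.add_mem hp (L.smul_mem _ hqL)
    rw [← h _ hx _ hy']
    have h1 : (p + t • q) * (p + s • q) ^ m
        = (p + s • q) ^ (m + 1) + (t - s) • (q * (p + s • q) ^ m) := by
      have : p + t • q = (p + s • q) + (t - s) • q := by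
        rw [sub_smul]; abel
      rw [this, add_mul, smul_mul_assoc, pow_succ]
      ring
    rw [h1, map_add, map_smul, _root_.add_apply, _root_.smul_apply, smul_eq_mul]
    ring
  have hdeg : ∀ s : ℂ, (eval (C s) G).natDegree < m + 1 := by
    intro s
    have : eval (C s) G = lineP p q V (Ψ ((p + s • q) ^ (m + 1))) := by
      refine Polynomial.funext fun t => ?_
      rw [lineP_eval, ← hval]
    rw [this]
    exact lineP_natDegree _ _ _ _
  have hz := biv_zero (d := m + 1) (fun B hB => hμ B (by omega)) G hrel hdeg 1 0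
  rw [hval] at hz
  simpa [hq] using hz

end Vale.Agent.P181.H970
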