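import Vale.Agent.P181.H280.Core
import Vale.Agent.P181.H970.Eig

/-!
# (K*) for odd degree (paper proof: helper493 #14537; short route #15046)

`d = m + 1` odd, `φ` a form on `d + 1 = m + 2` slots of degree `d`, symmetric in the first two slots,
which vanishes on common linear factors. Then `φ = 0` on degree `d`.
-/

set_option autoImplicit false

namespace Vale.Agent.P181.H970

open Vale.Agent.P181 Vale.Agent.P181.H280 Finset

variable {A : Type*} [CommRing A] [Algebra ℂ A]

/-- a linear functional that vanishes on the `d`-th powers vanishes on `L ^ d` -/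
theorem pow_span (L : Submodule ℂ A) (d : ℕ) (f : A →ₗ[ℂ] ℂ) (h : ∀ x ∈ L, f (x ^ d) = 0) :
    ∀ P ∈ L ^ d, f P = 0 := by
  intro P hP
  let F : MultilinearMap ℂ (fun _ : Fin 1 => A) ℂ :=
    { toFun := fun z => f (z 0)
      map_update_add' := by
        intro _ z i x y
        rw [Subsingleton.elim i 0]
        simp
      map_update_smul' := by
        intro _ z i c x
        rw [Subsingleton.elim i 0]
        simp }
  have h1 := claimA L F (fun _ => d) (fun _ => d) (by
    intro j
    rw [Finset.sum_const, smul_eq_mul, Fin.card_Iic]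
    have := j.2
    have h0 : (j : ℕ) = 0 := by omega
    rw [h0]
    simp) (by
    intro ξ hξ P hP
    show f (ξ ^ d * P 0) = 0
    have h2 := hP 0
    rw [Nat.sub_self, pow_zero, Submodule.mem_one] at h2
    obtain ⟨c, hc⟩ := h2
    rw [← hc, mul_comm, ← Algebra.smul_def, map_smul, h ξ hξ, smul_zero]) (fun _ => P) (fun _ => hP)
  exact h1

section Exch

variable {N : ℕ} (Ψ : A →ₗ[ℂ] MultilinearMap ℂ (fun _ : Fin N => A) ℂ) (w u : A) (v : Fin N → A)

open Classical in
/-- The value with the letters `w` on `K` and `u` off `K`. -/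
noncomputable def T (y : A) (K : Finset (Fin N)) : ℂ :=
  Ψ y (fun i => (if i ∈ K then w else u) * v i)

lemma T_add (y y' : A) (K : Finset (Fin N)) :
    T Ψ w u v (y + y') K = T Ψ w u v y K + T Ψ w u v y' K := by
  rw [T, T, T, map_add, _root_.add_apply]

lemma T_smul (t : ℂ) (y : A) (K : Finset (Fin N)) :
    T Ψ w u v (t • y) K = t * T Ψ w u v y K := by
  rw [T, T, map_smul, _root_.smul_apply, smul_eq_mul]

lemma expand (y : A) (t : ℂ) :
    Ψ y (fun i => (w + t • u) * v i) =
      ∑ K : Finset (Fin N), t ^ (Kᶜ).card * T Ψ w u v y K := by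
  classical
  have h1 : (fun i => (w + t • u) * v i) = (fun i => w * v i) + t • (fun i => u * v i) := by
    funext i
    rw [Pi.add_apply, Pi.smul_apply, add_mul, smul_mul_assoc]
  rw [h1, MultilinearMap.map_add_univ]
  apply Finset.sum_congr rfl
  intro s _
  set x' : Fin N → A := fun i => w * v i with hx'
  set y' : Fin N → A := fun i => u * v i with hy'
  have h2 : s.piecewise x' (t • y') = sᶜ.piecewise (fun i => t • (s.piecewise x' y') i)
      (s.piecewise x' y') := by
    funext i
    by_cases hi : i ∈ s
    · simp [Finset.piecewise, hi]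
    · simp [Finset.piecewise, hi]
  rw [h2, MultilinearMap.map_piecewise_smul, Finset.prod_const, smul_eq_mul, T]
  congr 2
  funext i
  by_cases hi : i ∈ s
  · rw [Finset.piecewise_eq_of_mem _ _ _ hi, if_pos hi]
  · rw [Finset.piecewise_eq_of_notMem _ _ _ hi, if_neg hi]

/-- The sum over the sets with `m` letters `u`. -/
noncomputable def E (y : A) (m : ℕ) : ℂ :=
  ∑ K : Finset (Fin N), if m = (Kᶜ).card then T Ψ w u v y K else 0

/-- One step of the exchange. -/
lemma E_step (y0 : A)
    (h : ∀ t : ℂ, Ψ ((w + t • u) * y0) (fun i => (w + t • u) * v i) = 0)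
    (m : ℕ) : E Ψ w u v (w * y0) (m + 1) + E Ψ w u v (u * y0) m = 0 := by
  classical
  let p : Polynomial ℂ := ∑ K : Finset (Fin N),
    (Polynomial.C (T Ψ w u v (w * y0) K) * Polynomial.X ^ (Kᶜ).card +
      Polynomial.C (T Ψ w u v (u * y0) K) * Polynomial.X ^ ((Kᶜ).card + 1))
  have hp : p = 0 := by
    apply Polynomial.funext
    intro t
    rw [Polynomial.eval_zero, ← h t, expand]
    simp only [p, Polynomial.eval_finsetSum, Polynomial.eval_add, Polynomial.eval_mul,
      Polynomial.eval_C, Polynomial.eval_pow, Polynomial.eval_X]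
    apply Finset.sum_congr rfl
    intro K _
    rw [add_mul, smul_mul_assoc, T_add, T_smul, pow_succ]
    ring
  have h2 := congrArg (fun q => q.coeff (m + 1)) hp
  simp only [p, Polynomial.finsetSum_coeff, Polynomial.coeff_add, Polynomial.coeff_C_mul,
    Polynomial.coeff_X_pow, Polynomial.coeff_zero, mul_ite, mul_one, mul_zero,
    add_left_inj] at h2
  rw [Finset.sum_add_distrib] at h2
  exact h2

lemma E_zero (y : A) : E Ψ w u v y 0 = Ψ y (fun i => w * v i) := by
  classical
  rw [E, Finset.sum_eq_single (Finset.univ : Finset (Fin N))]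
  · rw [Finset.compl_univ, Finset.card_empty, if_pos rfl, T]
    have h1 : (fun i : Fin N => (if i ∈ (Finset.univ : Finset (Fin N)) then w else u) * v i) =
        fun i => w * v i := by
      funext i
      rw [if_pos (Finset.mem_univ i)]
    rw [h1]
  · intro K _ hK
    rw [if_neg]
    intro h
    apply hK
    rw [eq_comm, Finset.card_eq_zero, Finset.compl_eq_empty_iff] at h
    exact h
  · intro h
    exact absurd (Finset.mem_univ _) h

lemma E_top (y : A) : E Ψ w u v y N = Ψ y (fun i => u * v i) := by
  classical
  rw [E, Finset.sum_eq_single (∅ : Finset (Fin N))]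
  · rw [Finset.compl_empty, Finset.card_univ, Fintype.card_fin, if_pos rfl, T]
    have h1 : (fun i : Fin N => (if i ∈ (∅ : Finset (Fin N)) then w else u) * v i) =
        fun i => u * v i := by
      funext i
      rw [if_neg (Finset.notMem_empty i)]
    rw [h1]
  · intro K _ hK
    rw [if_neg]
    intro h
    apply hK
    have h1 : (Kᶜ).card = Fintype.card (Fin N) := by rw [← h, Fintype.card_fin]
    rw [Finset.card_eq_iff_eq_univ, Finset.compl_eq_univ_iff] at h1
    exact h1
  · intro h
    exact absurd (Finset.mem_univ _) h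

end Exch

/-- **The exchange** for a form on `N + 1` slots of degree `N`. -/
theorem exch (L : Submodule ℂ A) {n : ℕ}
    (Ψ : A →ₗ[ℂ] MultilinearMap ℂ (fun _ : Fin (n + 1) => A) ℂ)
    (h : ∀ w ∈ L, ∀ y ∈ L ^ n, ∀ z : Fin (n + 1) → A, (∀ i, z i ∈ L ^ n) →
      Ψ (w * y) (fun i => w * z i) = 0)
    (w u : A) (hw : w ∈ L) (hu : u ∈ L) (z : Fin (n + 1) → A) (hz : ∀ i, z i ∈ L ^ n) :
    Ψ (w ^ (n + 1)) (fun i => u * z i) = (-1) ^ (n + 1) * Ψ (u ^ (n + 1)) (fun i => w * z i) := by
  have main : ∀ β α : ℕ, α + β = n + 1 →
      E Ψ w u z (w ^ α * u ^ β) α = (-1) ^ β * Ψ (w ^ (n + 1)) (fun i => u * z i) := by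
    intro β
    induction β with
    | zero =>
      intro α hα
      rw [add_zero] at hα
      subst hα
      rw [pow_zero, mul_one, E_top, pow_zero, one_mul]
    | succ β ih =>
      intro α hα
      have h1 := ih (α + 1) (by omega)
      have hy0 : w ^ α * u ^ β ∈ L ^ n := by
        have h2 : L ^ n = L ^ α * L ^ β := by
          rw [← pow_add]
          congr 1
          omega
        rw [h2]
        exact Submodule.mul_mem_mul (Submodule.pow_mem_pow _ hw _) (Submodule.pow_mem_pow _ hu _)
      have h3 := E_step Ψ w u z (w ^ α * u ^ β)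
        (fun t => h (w + t • u) (L.add_mem hw (L.smul_mem t hu)) _ hy0 z hz) α
      have h4 : w * (w ^ α * u ^ β) = w ^ (α + 1) * u ^ β := by ring
      have h5 : u * (w ^ α * u ^ β) = w ^ α * u ^ (β + 1) := by ring
      rw [h4, h5, h1] at h3
      rw [pow_succ (-1 : ℂ)]
      linear_combination h3
  have h1 := main (n + 1) 0 (by omega)
  rw [pow_zero, one_mul, E_zero] at h1
  rw [h1, ← mul_assoc, ← mul_pow]
  simp

/-- first order term of a bilinear map along a line -/
theorem first_bil (B : A →ₗ[ℂ] A →ₗ[ℂ] ℂ) (a b s t : A) (p q : ℕ)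
    (h : ∀ τ : ℂ, B ((a + τ • b) ^ p * s) ((a + τ • b) ^ q * t) = 0) :
    (p : ℂ) * B (a ^ (p - 1) * b * s) (a ^ q * t) + (q : ℂ) * B (a ^ p * s) (a ^ (q - 1) * b * t) = 0 := by
  classical
  -- the bilinear extension
  let bil : Polynomial A → Polynomial A → Polynomial ℂ := fun P Q =>
    P.sum fun i p => Q.sum fun k q => Polynomial.monomial (i + k) (B p q)
  have add_l : ∀ P P' Q, bil (P + P') Q = bil P Q + bil P' Q := by
    intro P P' Q
    refine Polynomial.sum_add_index P P' _ (fun i => ?_) (fun i x y => ?_)
    · simp [Polynomial.sum]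
    · simp only [Polynomial.sum, map_add, LinearMap.add_apply, Finset.sum_add_distrib]
  have add_r : ∀ P Q Q', bil P (Q + Q') = bil P Q + bil P Q' := by
    intro P Q Q'
    simp only [bil]
    rw [← Polynomial.sum_add']
    congr 1
    funext i p
    refine Polynomial.sum_add_index Q Q' _ (fun k => ?_) (fun k x y => ?_)
    · simp
    · simp
  have mono : ∀ i p k q, bil (Polynomial.monomial i p) (Polynomial.monomial k q)
      = Polynomial.monomial (i + k) (B p q) := by
    intro i p k q
    simp only [bil]
    rw [Polynomial.sum_monomial_index, Polynomial.sum_monomial_index] <;> simp [Polynomial.sum]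
  have ev : ∀ P Q, ∀ τ : ℂ, (bil P Q).eval τ
      = B (P.eval (algebraMap ℂ A τ)) (Q.eval (algebraMap ℂ A τ)) := by
    intro P Q τ
    induction P using Polynomial.induction_on' with
    | add P P' h1 h2 => rw [add_l, Polynomial.eval_add, h1, h2, Polynomial.eval_add, map_add,
        LinearMap.add_apply]
    | monomial i x =>
      induction Q using Polynomial.induction_on' with
      | add Q Q' h1 h2 => rw [add_r, Polynomial.eval_add, h1, h2, Polynomial.eval_add, map_add]
      | monomial k y =>
        rw [mono, Polynomial.eval_monomial, Polynomial.eval_monomial, Polynomial.eval_monomial,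
          ← map_pow, ← map_pow, mul_comm x, mul_comm y, ← Algebra.smul_def, ← Algebra.smul_def,
          map_smul, map_smul, LinearMap.smul_apply, smul_eq_mul, smul_eq_mul, pow_add]
        ring
  have co : ∀ P Q, (bil P Q).coeff 1
      = B (P.coeff 1) (Q.coeff 0) + B (P.coeff 0) (Q.coeff 1) := by
    intro P Q
    induction P using Polynomial.induction_on' with
    | add P P' h1 h2 =>
      rw [add_l, Polynomial.coeff_add, h1, h2, Polynomial.coeff_add, Polynomial.coeff_add, map_add,
        map_add, LinearMap.add_apply, LinearMap.add_apply]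
      ring
    | monomial i x =>
      induction Q using Polynomial.induction_on' with
      | add Q Q' h1 h2 =>
        rw [add_r, Polynomial.coeff_add, h1, h2, Polynomial.coeff_add, Polynomial.coeff_add, map_add,
          map_add]
        ring
      | monomial k y =>
        rw [mono]
        simp only [Polynomial.coeff_monomial]
        rcases i with _ | _ | i <;> rcases k with _ | _ | k <;> simp <;> omega
  have h0 : bil ((Polynomial.C a + Polynomial.C b * Polynomial.X) ^ p * Polynomial.C s)
      ((Polynomial.C a + Polynomial.C b * Polynomial.X) ^ q * Polynomial.C t) = 0 := by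
    apply Polynomial.funext
    intro τ
    rw [ev, Polynomial.eval_zero, ← h τ]
    simp only [Polynomial.eval_mul, Polynomial.eval_pow, Polynomial.eval_add, Polynomial.eval_C,
      Polynomial.eval_X, Algebra.smul_def, mul_comm b]
  have h1 := congrArg (fun R => R.coeff 1) h0
  simp only [co, Polynomial.coeff_zero] at h1
  have c0 : ∀ (r : ℕ) (z : A), ((Polynomial.C a + Polynomial.C b * Polynomial.X) ^ r *
      Polynomial.C z).coeff 0 = a ^ r * z := by
    intro r z
    rw [Polynomial.coeff_mul_C, Polynomial.coeff_zero_eq_eval_zero]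
    simp
  have c1 : ∀ (r : ℕ) (z : A), ((Polynomial.C a + Polynomial.C b * Polynomial.X) ^ r *
      Polynomial.C z).coeff 1 = (r : ℂ) • (a ^ (r - 1) * b * z) := by
    intro r z
    rw [Polynomial.coeff_mul_C]
    have h2 := Polynomial.coeff_derivative ((Polynomial.C a + Polynomial.C b * Polynomial.X) ^ r) 0
    have h3 : (Polynomial.derivative ((Polynomial.C a + Polynomial.C b * Polynomial.X) ^ r)).coeff 0
        = (r : A) * a ^ (r - 1) * b := by
      rw [Polynomial.coeff_zero_eq_eval_zero, Polynomial.derivative_pow]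
      simp
    rw [h3] at h2
    simp only [zero_add, Nat.cast_zero, mul_one] at h2
    rw [← h2, Algebra.smul_def, map_natCast]
    ring
  rw [c0, c0, c1, c1, map_smul, map_smul, LinearMap.smul_apply, smul_eq_mul, smul_eq_mul] at h1
  exact h1

end Vale.Agent.P181.H970
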