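import Vale.Agent.P181.H970.KS

set_option autoImplicit false

/-!
# (K*) for odd degree: the proof
-/

namespace Vale.Agent.P181.H970

open Vale.Agent.P181 Vale.Agent.P181.H280 Finset

variable {A : Type*} [CommRing A] [Algebra ℂ A]

section Main

variable (L : Submodule ℂ A) {n : ℕ} (φ : MultilinearMap ℂ (fun _ : Fin (n + 3) => A) ℂ)

/-- the form with the first two slots separated (`m = n + 1` other slots, degree `d = n + 2`) -/
noncomputable def c3 (a b : A) (V : Fin (n + 1) → A) : ℂ := φ (Fin.cons a (Fin.cons b V))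

lemma c3_add_l (a a' b : A) (V : Fin (n + 1) → A) :
    c3 φ (a + a') b V = c3 φ a b V + c3 φ a' b V := MultilinearMap.cons_add φ _ a a'

lemma c3_smul_l (c : ℂ) (a b : A) (V : Fin (n + 1) → A) :
    c3 φ (c • a) b V = c * c3 φ a b V := MultilinearMap.cons_smul φ _ c a

/-- as a bilinear map in the first two slots -/
noncomputable def bl (V : Fin (n + 1) → A) : A →ₗ[ℂ] A →ₗ[ℂ] ℂ :=
  LinearMap.mk₂ ℂ (fun a b => c3 φ a b V)
    (fun a a' b => c3_add_l φ a a' b V)
    (fun c a b => by rw [c3_smul_l, smul_eq_mul])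
    (fun a b b' => by
      have h : ∀ b, c3 φ a b V = (φ.curryLeft a) (Fin.cons b V) := fun b => rfl
      rw [h, h, h]
      exact MultilinearMap.cons_add (φ.curryLeft a) _ b b')
    (fun c a b => by
      have h : ∀ b, c3 φ a b V = (φ.curryLeft a) (Fin.cons b V) := fun b => rfl
      rw [h, h]
      exact MultilinearMap.cons_smul (φ.curryLeft a) _ c b)

lemma bl_apply (V : Fin (n + 1) → A) (a b : A) : bl φ V a b = c3 φ a b V := rfl

/-- hypothesis: symmetry in the first two slots -/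
def Sy : Prop := ∀ a b : A, ∀ V : Fin (n + 1) → A, c3 φ a b V = c3 φ b a V

/-- hypothesis: common linear factors are killed -/
def Kl : Prop := ∀ w ∈ L, ∀ a ∈ L ^ (n + 1), ∀ b ∈ L ^ (n + 1), ∀ V : Fin (n + 1) → A,
  (∀ i, V i ∈ L ^ (n + 1)) → c3 φ (w * a) (w * b) (fun i => w * V i) = 0

variable {L φ}

lemma ex1 (hK : Kl L φ) (hn : Odd n) (w u : A) (hw : w ∈ L) (hu : u ∈ L) (b : A)
    (hb : b ∈ L ^ (n + 1)) (V : Fin (n + 1) → A) (hV : ∀ i, V i ∈ L ^ (n + 1)) :
    c3 φ (w ^ (n + 2)) (u * b) (fun i => u * V i)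
      = - c3 φ (u ^ (n + 2)) (w * b) (fun i => w * V i) := by
  have h1 := exch L (n := n + 1) φ.curryLeft (by
    intro w hw y hy z hz
    have h2 := hK w hw y hy (z 0) (hz 0) (fun i => z i.succ) (fun i => hz _)
    rw [← h2, c3]
    show φ (Fin.cons (w * y) _) = _
    congr 2
    funext i
    refine Fin.cases ?_ (fun i => ?_) i
    · rfl
    · rfl) w u hw hu (Fin.cons b V) (by
      intro i
      refine Fin.cases ?_ (fun i => ?_) i
      · exact hb
      · exact hV i)
  have e : ∀ x y : A, φ.curryLeft x (fun i => y * (Fin.cons b V : Fin (n + 2) → A) i)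
      = c3 φ x (y * b) (fun i => y * V i) := by
    intro x y
    rw [c3]
    show φ (Fin.cons x _) = _
    congr 2
    funext i
    refine Fin.cases ?_ (fun i => ?_) i
    · rfl
    · rfl
  have e1 : n + 1 + 1 = n + 2 := rfl
  rw [e, e, e1] at h1
  rw [h1]
  have h3 : ((-1 : ℂ)) ^ (n + 2) = -1 := by
    rw [pow_add, hn.neg_one_pow]
    norm_num
  rw [h3]
  ring

/-- `ρ = 0` -/
lemma rho (hK : Kl L φ) (hn : Odd n) (u w z : A) (hu : u ∈ L) (hw : w ∈ L) (hz : z ∈ L) (b : A)
    (hb : b ∈ L ^ n) (V : Fin (n + 1) → A) (hV : ∀ i, V i ∈ L ^ n) :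
    c3 φ (u ^ (n + 2)) (w * (z * b)) (fun i => w * (z * V i)) = 0 := by
  have ex : ∀ u w z : A, u ∈ L → w ∈ L → z ∈ L →
      c3 φ (u ^ (n + 2)) (w * (z * b)) (fun i => w * (z * V i))
        = - c3 φ (w ^ (n + 2)) (u * (z * b)) (fun i => u * (z * V i)) := by
    intro u w z hu hw hz
    refine ex1 hK hn u w hu hw (z * b) ?_ (fun i => z * V i) (fun i => ?_)
    · rw [pow_succ']
      exact Submodule.mul_mem_mul hz hb
    · rw [pow_succ']
      exact Submodule.mul_mem_mul hz (hV i)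
  have sw : ∀ u w z : A, c3 φ (u ^ (n + 2)) (w * (z * b)) (fun i => w * (z * V i))
      = c3 φ (u ^ (n + 2)) (z * (w * b)) (fun i => z * (w * V i)) := by
    intro u w z
    have h1 : w * (z * b) = z * (w * b) := by ring
    have h2 : (fun i => w * (z * V i)) = fun i => z * (w * V i) := by
      funext i; ring
    rw [h1, h2]
  have h1 := ex u w z hu hw hz
  rw [sw w u z, ex w z u hw hz hu, neg_neg, sw z w u, ex z u w hz hu hw, sw u z w] at h1
  linear_combination (1 / 2) * h1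

/-- (W) -/
lemma wlem (hK : Kl L φ) (hn : Odd n) (h : A) (hh : h ∈ L ^ (n + 2)) (y x a : A) (hy : y ∈ L)
    (hx : x ∈ L) (ha : a ∈ L) (V : Fin (n + 1) → A) (hV : ∀ i, V i ∈ L ^ n) :
    c3 φ h (y * x ^ (n + 1)) (fun i => y * (a * V i))
      = c3 φ h (y * a ^ (n + 1)) (fun i => y * (x * V i)) := by
  have key := pow_span L (n + 2)
    ((bl φ (fun i => y * (a * V i))).flip (y * x ^ (n + 1))
      - (bl φ (fun i => y * (x * V i))).flip (y * a ^ (n + 1))) (by
    intro c hc
    rw [LinearMap.sub_apply, LinearMap.flip_apply, LinearMap.flip_apply, bl_apply, bl_apply,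
      sub_eq_zero]
    have h1 := exch L (n := n) ((mulArg (φ.curryLeft (c ^ (n + 2))) (fun _ => y)).curryLeft) (by
      intro w hw b hb z hz
      show mulArg (φ.curryLeft (c ^ (n + 2))) (fun _ => y) (Fin.cons (w * b) _) = 0
      rw [mulArg_apply]
      have h2 := rho hK hn c y w hc hy hw b hb z hz
      rw [← h2, c3]
      show φ (Fin.cons _ _) = _
      congr 2
      funext i
      refine Fin.cases ?_ (fun i => ?_) i
      · rfl
      · rfl) x a hx ha V hV
    have e : ∀ s t : A, (mulArg (φ.curryLeft (c ^ (n + 2))) (fun _ => y)).curryLeft s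
        (fun i => t * V i) = c3 φ (c ^ (n + 2)) (y * s) (fun i => y * (t * V i)) := by
      intro s t
      show mulArg (φ.curryLeft (c ^ (n + 2))) (fun _ => y) (Fin.cons s _) = _
      rw [mulArg_apply, c3]
      show φ (Fin.cons _ _) = _
      congr 2
      funext i
      refine Fin.cases ?_ (fun i => ?_) i
      · rfl
      · rfl
    rw [e, e] at h1
    rw [h1]
    have h3 : ((-1 : ℂ)) ^ (n + 1) = 1 := by
      rw [pow_succ, hn.neg_one_pow]
      norm_num
    rw [h3, one_mul]) h hh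
  rw [LinearMap.sub_apply, LinearMap.flip_apply, LinearMap.flip_apply, bl_apply, bl_apply,
      sub_eq_zero] at key
  exact key

/-- the coefficients `M_(k,l)` -/
noncomputable def MM (φ : MultilinearMap ℂ (fun _ : Fin (n + 3) => A) ℂ)
    (a b x y : A) (V : Fin (n + 1) → A) (k l : ℕ) : ℂ :=
  c3 φ (a ^ (n + 2 - k) * b ^ k) (y * (a ^ (n + 1 - l) * b ^ l)) (fun i => y * (x * V i))

/-- the statement `P j` -/
def PP (L : Submodule ℂ A) (φ : MultilinearMap ℂ (fun _ : Fin (n + 3) => A) ℂ) (j : ℕ) : Prop :=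
  ∀ k l, k + l = j → ∀ a ∈ L, ∀ b ∈ L, ∀ x ∈ L, ∀ y ∈ L, ∀ V : Fin (n + 1) → A,
    (∀ i, V i ∈ L ^ n) → MM φ a b x y V k l = 0

/-- the chain relation -/
lemma chain {j : ℕ} (hP : PP L φ j) (k l : ℕ) (hkl : k + l = j) (a b x y : A)
    (ha : a ∈ L) (hb : b ∈ L) (hx : x ∈ L) (hy : y ∈ L) (V : Fin (n + 1) → A)
    (hV : ∀ i, V i ∈ L ^ n) :
    ((n + 2 - k : ℕ) : ℂ) * MM φ a b x y V (k + 1) l
      + ((n + 1 - l : ℕ) : ℂ) * MM φ a b x y V k (l + 1) = 0 := by
  have h := first_bil (bl φ (fun i => y * (x * V i))) a b (b ^ k) (y * b ^ l) (n + 2 - k)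
    (n + 1 - l) (by
    intro τ
    have h1 := hP k l hkl (a + τ • b) (L.add_mem ha (L.smul_mem _ hb)) b hb x hx y hy V hV
    rw [MM] at h1
    rw [bl_apply, ← h1]
    congr 1
    ring)
  rw [bl_apply, bl_apply] at h
  rw [MM, MM, ← h]
  have e1 : n + 2 - (k + 1) = n + 2 - k - 1 := by omega
  have e2 : n + 1 - (l + 1) = n + 1 - l - 1 := by omega
  rw [e1, e2]
  have e3 : a ^ (n + 2 - k - 1) * b * b ^ k = a ^ (n + 2 - k - 1) * b ^ (k + 1) := by ring
  have e4 : a ^ (n + 1 - l) * (y * b ^ l) = y * (a ^ (n + 1 - l) * b ^ l) := by ring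
  have e5 : a ^ (n + 1 - l - 1) * b * (y * b ^ l) = y * (a ^ (n + 1 - l - 1) * b ^ (l + 1)) := by ring
  rw [e3, e4, e5]

/-- the ratio along the chain -/
lemma ratio {j : ℕ} (hP : ∀ i, i + 1 = j → PP L φ i) (hj : j ≤ n + 1) (a b x y : A)
    (ha : a ∈ L) (hb : b ∈ L) (hx : x ∈ L) (hy : y ∈ L) (V : Fin (n + 1) → A)
    (hV : ∀ i, V i ∈ L ^ n) : ∀ i, i ≤ j →
    MM φ a b x y V i (j - i) * (((n + 1 - j).factorial : ℂ) * ((n + 2).factorial : ℂ))
      = (-1) ^ i * (((n + 1 - j + i).factorial : ℂ) * ((n + 2 - i).factorial : ℂ))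
        * MM φ a b x y V 0 j := by
  intro i
  induction i with
  | zero =>
    intro _
    simp only [Nat.sub_zero, pow_zero, one_mul, add_zero]
    ring
  | succ i ih =>
    intro hi
    have h1 := ih (by omega)
    have h2 := chain (j := j - 1) (hP (j - 1) (by omega)) i (j - 1 - i) (by omega) a b x y ha hb hx hy V hV
    have e1 : j - 1 - i + 1 = j - i := by omega
    have e2 : j - (i + 1) = j - 1 - i := by omega
    have e3 : n + 1 - (j - 1 - i) = n + 1 - j + i + 1 := by omega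
    rw [e1, e3] at h2
    rw [e2]
    have e4 : n + 2 - i = (n + 2 - (i + 1)) + 1 := by omega
    have e5 : n + 1 - j + (i + 1) = (n + 1 - j + i) + 1 := by omega
    have f1 : ((n + 2 - i).factorial : ℂ)
        = ((n + 2 - i : ℕ) : ℂ) * ((n + 2 - (i + 1)).factorial : ℂ) := by
      rw [e4, Nat.factorial_succ]; push_cast; ring
    have f2 : ((n + 1 - j + (i + 1)).factorial : ℂ)
        = ((n + 1 - j + i + 1 : ℕ) : ℂ) * ((n + 1 - j + i).factorial : ℂ) := by
      rw [e5, Nat.factorial_succ]; push_cast; ring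
    rw [f1] at h1
    rw [f2]
    have hne : ((n + 2 - i : ℕ) : ℂ) ≠ 0 := by
      exact Nat.cast_ne_zero.mpr (by omega)
    apply mul_left_cancel₀ hne
    rw [pow_succ]
    generalize ((n + 2 - i : ℕ) : ℂ) = u1 at h1 h2 ⊢
    generalize ((n + 1 - j + i + 1 : ℕ) : ℂ) = u2 at h1 h2 ⊢
    generalize ((n + 2 - (i + 1)).factorial : ℂ) = u3 at h1 h2 ⊢
    generalize ((n + 1 - j + i).factorial : ℂ) = u4 at h1 h2 ⊢
    generalize ((n + 1 - j).factorial : ℂ) = u5 at h1 h2 ⊢
    generalize ((n + 2).factorial : ℂ) = u6 at h1 h2 ⊢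
    linear_combination (u5 * u6) * h2 - u2 * h1

/-- `(n+2) M(j,0) = (-1)^j (n+2-j) M(0,j)` -/
lemma ratio_top {j : ℕ} (hP : ∀ i, i + 1 = j → PP L φ i) (hj : j ≤ n + 1) (a b x y : A)
    (ha : a ∈ L) (hb : b ∈ L) (hx : x ∈ L) (hy : y ∈ L) (V : Fin (n + 1) → A)
    (hV : ∀ i, V i ∈ L ^ n) :
    ((n + 2 : ℕ) : ℂ) * MM φ a b x y V j 0
      = (-1) ^ j * ((n + 2 - j : ℕ) : ℂ) * MM φ a b x y V 0 j := by
  have h := ratio hP hj a b x y ha hb hx hy V hV j le_rfl
  rw [Nat.sub_self] at h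
  have e1 : n + 1 - j + j = n + 1 := by omega
  have e2 : n + 2 - j = (n + 1 - j) + 1 := by omega
  have f1 : ((n + 2).factorial : ℂ) = ((n + 2 : ℕ) : ℂ) * ((n + 1).factorial : ℂ) := by
    rw [Nat.factorial_succ]; push_cast; ring
  have f2 : ((n + 2 - j).factorial : ℂ)
      = ((n + 2 - j : ℕ) : ℂ) * ((n + 1 - j).factorial : ℂ) := by
    rw [e2, Nat.factorial_succ]; push_cast; ring
  rw [e1, f1, f2] at h
  have n1 : ((n + 1).factorial : ℂ) ≠ 0 := by exact_mod_cast Nat.factorial_ne_zero _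
  have n2 : ((n + 1 - j).factorial : ℂ) ≠ 0 := by exact_mod_cast Nat.factorial_ne_zero _
  apply mul_left_cancel₀ (mul_ne_zero n1 n2)
  linear_combination h

/-- all coefficients of level `j` vanish when `M(0,j)` does -/
lemma all_of_top {j : ℕ} (hP : ∀ i, i + 1 = j → PP L φ i) (hj : j ≤ n + 1)
    (h0 : ∀ a ∈ L, ∀ b ∈ L, ∀ x ∈ L, ∀ y ∈ L, ∀ V : Fin (n + 1) → A,
    (∀ i, V i ∈ L ^ n) → MM φ a b x y V 0 j = 0) : PP L φ j := by
  intro k l hkl a ha b hb x hx y hy V hV
  have h := ratio hP hj a b x y ha hb hx hy V hV k (by omega)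
  rw [h0 a ha b hb x hx y hy V hV, mul_zero] at h
  have e : j - k = l := by omega
  rw [e] at h
  have n1 : ((n + 2).factorial : ℂ) ≠ 0 := by exact_mod_cast Nat.factorial_ne_zero _
  have n2 : ((n + 1 - j).factorial : ℂ) ≠ 0 := by exact_mod_cast Nat.factorial_ne_zero _
  exact (mul_eq_zero.1 h).resolve_right (mul_ne_zero n2 n1)

/-- the step -/
lemma stepP (hS : Sy φ) (hK : Kl L φ) (hn : Odd n) {j : ℕ} (hP : ∀ i, i + 1 = j → PP L φ i)
    (hj : j ≤ n + 1) : PP L φ j := by
  apply all_of_top hP hj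
  intro a ha b hb x hx y hy V hV
  -- memberships
  have hm : ∀ p q r : ℕ, p + q = r → a ^ p * b ^ q ∈ L ^ r := by
    intro p q r h
    rw [← h, pow_add]
    exact Submodule.mul_mem_mul (Submodule.pow_mem_pow _ ha _) (Submodule.pow_mem_pow _ hb _)
  have hmV : ∀ z ∈ L, ∀ i, z * V i ∈ L ^ (n + 1) := by
    intro z hz i
    rw [pow_succ']
    exact Submodule.mul_mem_mul hz (hV i)
  -- exchange for `M(0,j)`
  have hex : ∀ x y : A, x ∈ L → y ∈ L → MM φ a b x y V 0 j
      = - c3 φ (y ^ (n + 2)) (a ^ (n + 2 - j) * b ^ j) (fun i => x * (a * V i)) := by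
    intro x y hx hy
    have h1 := ex1 hK hn a y ha hy (a ^ (n + 1 - j) * b ^ j) (hm _ _ _ (by omega))
      (fun i => x * V i) (hmV x hx)
    rw [MM, Nat.sub_zero, pow_zero, mul_one, h1]
    have e1 : a * (a ^ (n + 1 - j) * b ^ j) = a ^ (n + 2 - j) * b ^ j := by
      have : n + 2 - j = (n + 1 - j) + 1 := by omega
      rw [this, pow_succ]; ring
    have e2 : (fun i => a * (x * V i)) = fun i => x * (a * V i) := by
      funext i; ring
    rw [e1, e2]
  -- the eigenvalue lemma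
  let Ψ : A →ₗ[ℂ] MultilinearMap ℂ (fun _ : Fin (n + 1) => A) ℂ :=
    { toFun := fun h => (φ.curryLeft h).curryLeft (a ^ (n + 2 - j) * b ^ j)
      map_add' := by
        intro h h'
        rw [map_add]
        ext V
        rfl
      map_smul' := by
        intro c h
        rw [map_smul]
        ext V
        rfl }
  have hΨ : ∀ h V, Ψ h V = c3 φ h (a ^ (n + 2 - j) * b ^ j) V := fun h V => rfl
  have hE := eig L Ψ (fun i => a * V i) ((-1) ^ (j + 1) * ((n + 2 - j : ℕ) : ℂ)) (by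
    intro B hB heq
    have hj0 : ((n + 2 - j : ℕ) : ℂ) ≠ 0 := by
      have : n + 2 - j ≠ 0 := by omega
      exact_mod_cast this
    -- compare squares
    have h2 : (((n + 2 - j : ℕ) : ℂ)) ^ 2 = (((n + 1 + 1 - B : ℕ) : ℂ)) ^ 2 := by
      have h3 := congrArg (fun z => z ^ 2) heq
      simp only [mul_pow, ← pow_mul] at h3
      rw [mul_comm (j + 1) 2, mul_comm B 2, pow_mul, pow_mul] at h3
      simpa using h3
    have h4 : (n + 2 - j) ^ 2 = (n + 1 + 1 - B) ^ 2 := by exact_mod_cast h2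
    have h5 : n + 2 - j = n + 1 + 1 - B := Nat.pow_left_injective (by norm_num) h4
    have h6 : B = j := by omega
    subst h6
    have e : n + 1 + 1 - B = n + 2 - B := rfl
    rw [e, pow_succ] at heq
    have h7 : (-1 : ℂ) ^ B * ((n + 2 - B : ℕ) : ℂ) = 0 := by linear_combination (-1 / 2) * heq
    rcases mul_eq_zero.1 h7 with h8 | h8
    · exact absurd h8 (pow_ne_zero _ (by norm_num))
    · exact hj0 h8) (by
    intro x hx y hy
    rw [hΨ, hΨ]
    have e1 : n + 1 + 1 = n + 2 := rfl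
    rw [e1]
    -- left side: symmetry and (W)
    have h1 : c3 φ (y * x ^ (n + 1)) (a ^ (n + 2 - j) * b ^ j) (fun i => y * (a * V i))
        = MM φ a b x y V j 0 := by
      rw [hS, wlem hK hn _ (hm _ _ _ (by omega)) y x a hy hx ha V hV, MM, pow_zero, mul_one,
        Nat.sub_zero]
    have h2 := ratio_top hP hj a b x y ha hb hx hy V hV
    rw [h1, h2, hex x y hx hy, pow_succ (-1 : ℂ) j]
    ring)
  rw [hex x y hx hy, ← hΨ, hE y hy x hx, neg_zero]

/-- all levels -/
lemma allP (hS : Sy φ) (hK : Kl L φ) (hn : Odd n) : ∀ j, j ≤ n + 1 → PP L φ j := by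
  intro j
  induction j with
  | zero =>
    intro hj
    exact stepP hS hK hn (fun i hi => absurd hi (by omega)) hj
  | succ j ih =>
    intro hj
    exact stepP hS hK hn (fun i hi => by
      have : i = j := by omega
      rw [this]
      exact ih (by omega)) hj

/-- **(K*) for odd degree `d = n + 2`.** -/
theorem kStar3 (hS : Sy φ) (hK : Kl L φ) (hn : Odd n) (P : Fin (n + 3) → A)
    (hP : ∀ i, P i ∈ L ^ (n + 2)) : φ P = 0 := by
  have hX := allP hS hK hn (n + 1) le_rfl
  -- X = 0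
  have h1 : ∀ a ∈ L, ∀ y ∈ L, ∀ x ∈ L, ∀ W ∈ L ^ (n + 1), ∀ V : Fin (n + 1) → A,
      (∀ i, V i ∈ L ^ n) → c3 φ (a ^ (n + 2)) (y * W) (fun i => y * (x * V i)) = 0 := by
    intro a ha y hy x hx W hW V hV
    have := pow_span L (n + 1) ((bl φ (fun i => y * (x * V i)) (a ^ (n + 2))).comp
      (LinearMap.mulLeft ℂ y)) (by
      intro b hb
      have h2 := hX 0 (n + 1) (by omega) a ha b hb x hx y hy V hV
      rw [MM, Nat.sub_zero, pow_zero, mul_one, Nat.sub_self, pow_zero, one_mul] at h2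
      exact h2) W hW
    exact this
  -- peel x
  have h2 : ∀ a ∈ L, ∀ y ∈ L, ∀ W ∈ L ^ (n + 1), ∀ V : Fin (n + 1) → A,
      (∀ i, V i ∈ L ^ (n + 1)) → c3 φ (a ^ (n + 2)) (y * W) (fun i => y * V i) = 0 := by
    intro a ha y hy W hW
    have := claimA L (mulArg ((φ.curryLeft (a ^ (n + 2))).curryLeft (y * W)) (fun _ => y))
      (fun _ => n + 1) (fun _ => 1) (by
        intro j
        rw [Finset.sum_const, smul_eq_mul, mul_one, Fin.card_Iic]
        have := j.2
        omega) (by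
        intro x hx V hV
        rw [mulArg_apply]
        simp only [pow_one]
        exact h1 a ha y hy x hx W hW V hV)
    intro V hV
    have h3 := this V hV
    rw [mulArg_apply] at h3
    exact h3
  -- peel y
  have h3 : ∀ a ∈ L, ∀ Q : Fin (n + 2) → A, (∀ i, Q i ∈ L ^ (n + 2)) →
      φ (Fin.cons (a ^ (n + 2)) Q) = 0 := by
    intro a ha
    exact claimA L (φ.curryLeft (a ^ (n + 2))) (fun _ => n + 2) (fun _ => 1) (by
        intro j
        rw [Finset.sum_const, smul_eq_mul, mul_one, Fin.card_Iic]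
        have := j.2
        omega) (by
        intro y hy V hV
        have h4 := h2 a ha y hy (V 0) (hV 0) (fun i => V i.succ) (fun i => hV _)
        rw [← h4, c3]
        show φ (Fin.cons _ _) = _
        congr 2
        funext i
        refine Fin.cases ?_ (fun i => ?_) i
        · simp
        · simp)
  -- the first slot
  have h5 := pow_span L (n + 2)
    { toFun := fun h => φ (Fin.cons h (fun i => P i.succ))
      map_add' := fun h h' => MultilinearMap.cons_add φ _ h h'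
      map_smul' := fun c h => MultilinearMap.cons_smul φ _ c h } (by
    intro a ha
    exact h3 a ha _ (fun i => hP _)) (P 0) (hP 0)
  have h6 : P = Fin.cons (P 0) (fun i => P i.succ) := by
    funext i
    refine Fin.cases ?_ (fun i => ?_) i
    · rfl
    · rfl
  rw [h6]
  exact h5

end Main

end Vale.Agent.P181.H970
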